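import Mathlib
import Vale.Agent.Helper1.PrefixTests
import Vale.Agent.Helper1.FiniteMinimax

/-!
# P262: a random signing whose initial partial sums all have second moment at most the identity

For every finite sequence `v 0, …, v (N-1)` in the Euclidean unit ball of `ℝ^d` there is a
probability distribution on sign sequences, supported on finitely many of them, such that for
every length `k ≤ N` and every vector `θ` the mean of `⟪θ, S_k⟫ ^ 2` is at most `‖θ‖ ^ 2`, where
`S_k = ∑ i < k, ε i • v i`.  In particular the mean of `‖S_k‖ ^ 2` is at most `d` for every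
`k ≤ N` simultaneously.

The distribution is obtained from the weighted statement for finitely many linear tests
(`Vale.Agent.Helper1.PrefixTests.prefix_tests`) by a finite minimax argument and compactness of
the simplex of probability vectors on the `2 ^ N` sign patterns.
-/

namespace Vale.Agent.Results.P262.DistributionAllPrefixes

open scoped InnerProductSpace
open Vale.Agent.Helper1.PrefixTests Vale.Agent.Helper1.FiniteMinimax

/-- **A distribution on signings that balances all initial partial sums in mean square.**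
Let `v 0, …, v (N-1)` lie in the Euclidean unit ball of `ℝ^d`. Then there are finitely many sign
sequences `ε a` (`a : Fin m`) with probabilities `q a ≥ 0`, `∑ a, q a = 1`, such that for every
`k ≤ N` and every `θ ∈ ℝ^d` the `q`-mean of `⟪θ, ∑_{i<k} ε a i • v i⟫ ^ 2` is at most `‖θ‖ ^ 2`;
consequently the `q`-mean of `‖∑_{i<k} ε a i • v i‖ ^ 2` is at most `d` for every `k ≤ N`. -/
theorem result (d N : ℕ) (v : ℕ → EuclideanSpace ℝ (Fin d)) (hv : ∀ i < N, ‖v i‖ ≤ 1) :
    ∃ (m : ℕ) (q : Fin m → ℝ) (ε : Fin m → ℕ → ℝ),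
      (∀ a, 0 ≤ q a) ∧ ∑ a, q a = 1 ∧ (∀ a i, ε a i = 1 ∨ ε a i = -1) ∧
      (∀ k ≤ N, ∀ θ : EuclideanSpace ℝ (Fin d),
        ∑ a, q a * ⟪θ, ∑ i ∈ Finset.range k, ε a i • v i⟫_ℝ ^ 2 ≤ ‖θ‖ ^ 2) ∧
      (∀ k ≤ N, ∑ a, q a * ‖∑ i ∈ Finset.range k, ε a i • v i‖ ^ 2 ≤ d) := by
  classical
  -- sign patterns
  set sg : (Fin N → Bool) → ℕ → ℝ := fun ω i =>
    if h : i < N then (if ω ⟨i, h⟩ then 1 else -1) else 1 with hsg
  have hsg1 : ∀ ω i, sg ω i = 1 ∨ sg ω i = -1 := by
    intro ω i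
    simp only [hsg]
    split_ifs <;> simp
  set S : (Fin N → Bool) → ℕ → EuclideanSpace ℝ (Fin d) := fun ω k =>
    ∑ i ∈ Finset.range k, sg ω i • v i with hS
  set v' : ℕ → EuclideanSpace ℝ (Fin d) := fun i => if i < N then v i else 0 with hv'
  have hv'1 : ∀ i, ‖v' i‖ ≤ 1 := by
    intro i
    simp only [hv']
    split_ifs with h
    · exact hv i h
    · simp
  -- the weighted statement in terms of sign patterns
  have hweighted : ∀ (u : Finset (Fin (N + 1) × EuclideanSpace ℝ (Fin d)))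
      (lam : {t // t ∈ u} → ℝ), (∀ j, 0 ≤ lam j) →
      ∃ ω : Fin N → Bool, ∑ j, lam j * ⟪j.1.2, S ω j.1.1⟫_ℝ ^ 2 ≤ ∑ j, lam j * ‖j.1.2‖ ^ 2 := by
    intro u lam hlam
    obtain ⟨ε, hε, hle⟩ := prefix_tests d v' hv'1
      (fun j : {t // t ∈ u} => Real.sqrt (lam j) • j.1.2) (fun j => (j.1.1 : ℕ))
    refine ⟨fun i => decide (ε i = 1), ?_⟩
    have hsum : ∀ k, k ≤ N → ∑ i ∈ Finset.range k, ε i • v' i
        = S (fun i => decide (ε i = 1)) k := by
      intro k hk
      refine Finset.sum_congr rfl fun i hi => ?_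
      have hiN : i < N := lt_of_lt_of_le (Finset.mem_range.mp hi) hk
      have h1 : v' i = v i := by simp [hv', hiN]
      have h2 : sg (fun i : Fin N => decide (ε i = 1)) i = ε i := by
        simp only [hsg, dif_pos hiN]
        rcases hε i with h | h
        · simp [h]
        · have hne : ¬ ε i = 1 := by rw [h]; norm_num
          rw [if_neg (by rw [decide_eq_true_iff]; exact hne), h]
      rw [h1, h2]
    have hl : ∀ j : {t // t ∈ u},
        ⟪Real.sqrt (lam j) • j.1.2, ∑ i ∈ Finset.range (j.1.1 : ℕ), ε i • v' i⟫_ℝ ^ 2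
          = lam j * ⟪j.1.2, S (fun i => decide (ε i = 1)) j.1.1⟫_ℝ ^ 2 := by
      intro j
      rw [hsum _ (Nat.lt_succ_iff.mp j.1.1.isLt), inner_smul_left, mul_pow]
      simp only [RCLike.conj_to_real]
      rw [Real.sq_sqrt (hlam j)]
    have hr : ∀ j : {t // t ∈ u}, ‖Real.sqrt (lam j) • j.1.2‖ ^ 2 = lam j * ‖j.1.2‖ ^ 2 := by
      intro j
      rw [norm_smul, mul_pow, Real.norm_eq_abs, sq_abs, Real.sq_sqrt (hlam j)]
    rw [Finset.sum_congr rfl fun j _ => hl j, Finset.sum_congr rfl fun j _ => hr j] at hle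
    exact hle
  -- compactness over all tests
  set C : (Fin (N + 1) × EuclideanSpace ℝ (Fin d)) → Set ((Fin N → Bool) → ℝ) := fun t =>
    {q | ∑ ω, q ω * ⟪t.2, S ω t.1⟫_ℝ ^ 2 ≤ ‖t.2‖ ^ 2} with hC
  have hclosed : ∀ t, IsClosed (C t) := fun t =>
    isClosed_le (continuous_finsetSum _ fun ω _ => (continuous_apply ω).mul continuous_const)
      continuous_const
  have hfin : ∀ u : Finset (Fin (N + 1) × EuclideanSpace ℝ (Fin d)),
      (stdSimplex ℝ (Fin N → Bool) ∩ ⋂ t ∈ u, C t).Nonempty := by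
    intro u
    obtain ⟨q, hq0, hq1, hq⟩ := finite_minimax
      (fun (j : {t // t ∈ u}) (ω : Fin N → Bool) => ⟪j.1.2, S ω j.1.1⟫_ℝ ^ 2)
      (fun j => ‖j.1.2‖ ^ 2) (hweighted u)
    refine ⟨q, ⟨hq0, hq1⟩, ?_⟩
    simp only [Set.mem_iInter]
    intro t ht
    exact hq ⟨t, ht⟩
  obtain ⟨q, hqK, hqC⟩ := (isCompact_stdSimplex ℝ (Fin N → Bool)).inter_iInter_nonempty C
    hclosed hfin
  have hqall : ∀ k ≤ N, ∀ θ : EuclideanSpace ℝ (Fin d),
      ∑ ω, q ω * ⟪θ, S ω k⟫_ℝ ^ 2 ≤ ‖θ‖ ^ 2 := by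
    intro k hk θ
    have := Set.mem_iInter.mp hqC (⟨k, Nat.lt_succ_iff.mpr hk⟩, θ)
    exact this
  -- transfer to an enumeration of the sign patterns
  set e := Fintype.equivFin (Fin N → Bool) with he
  have htrans : ∀ F : (Fin N → Bool) → ℝ, ∑ a, F (e.symm a) = ∑ ω, F ω := fun F =>
    Equiv.sum_comp e.symm F
  have hmain : ∀ k ≤ N, ∀ θ : EuclideanSpace ℝ (Fin d),
      ∑ a, q (e.symm a) * ⟪θ, ∑ i ∈ Finset.range k, sg (e.symm a) i • v i⟫_ℝ ^ 2 ≤ ‖θ‖ ^ 2 := by
    intro k hk θ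
    rw [htrans (fun ω => q ω * ⟪θ, ∑ i ∈ Finset.range k, sg ω i • v i⟫_ℝ ^ 2)]
    exact hqall k hk θ
  refine ⟨Fintype.card (Fin N → Bool), fun a => q (e.symm a), fun a => sg (e.symm a),
    fun a => hqK.1 _, ?_, fun a i => hsg1 _ i, hmain, ?_⟩
  · rw [htrans q]; exact hqK.2
  · intro k hk
    have hnorm : ∀ a, ‖∑ i ∈ Finset.range k, sg (e.symm a) i • v i‖ ^ 2
        = ∑ l : Fin d, ⟪EuclideanSpace.single l (1 : ℝ),
            ∑ i ∈ Finset.range k, sg (e.symm a) i • v i⟫_ℝ ^ 2 := by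
      intro a
      rw [EuclideanSpace.real_norm_sq_eq]
      refine Finset.sum_congr rfl fun l _ => ?_
      rw [EuclideanSpace.inner_single_left]; simp
    calc ∑ a, q (e.symm a) * ‖∑ i ∈ Finset.range k, sg (e.symm a) i • v i‖ ^ 2
        = ∑ l : Fin d, ∑ a, q (e.symm a) * ⟪EuclideanSpace.single l (1 : ℝ),
            ∑ i ∈ Finset.range k, sg (e.symm a) i • v i⟫_ℝ ^ 2 := by
          rw [Finset.sum_comm]
          refine Finset.sum_congr rfl fun a _ => ?_
          rw [hnorm a, Finset.mul_sum]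
      _ ≤ ∑ l : Fin d, ‖EuclideanSpace.single l (1 : ℝ)‖ ^ 2 :=
          Finset.sum_le_sum fun l _ => hmain k hk _
      _ = d := by simp

end Vale.Agent.Results.P262.DistributionAllPrefixes
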