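import Mathlib
import Vale.Agent.Helper1.Reorder
import Vale.Agent.Helper1.PrefixWeighted

/-!
# P262: rearrangements of zero-sum families with small partial sums in mean square

Every finite family of vectors of the Euclidean unit ball of `ℝ^d` with sum `0`, given as a list
`L` of length `n`, can be rearranged into a list `L'` such that

`∑ k ≤ n, ‖sum of the first k terms of L'‖ ^ 2 ≤ d * n`,

that is, the mean square of the norms of the partial sums of `L'` is at most `d`.

The proof takes a rearrangement minimising the sum of squared norms of partial sums, signs it by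
`Vale.Agent.Helper1.PrefixWeighted.weighted_prefix` with equal weights, and compares it with the
rearrangement that lists the vectors with sign `1` in order and then the others in reverse order
(`Vale.Agent.Helper1.Reorder`).
-/

namespace Vale.Agent.Results.P262.MeanSquareOrdering

open Vale.Agent.Helper1.Reorder

/-- **Mean-square rearrangement of a zero-sum family.** Let `L` be a finite list of vectors of
the Euclidean unit ball of `ℝ^d` with sum `0`. Then some rearrangement `L'` of `L` (a list that
is a permutation of `L`) satisfies: the sum over `k = 0, …, |L|` of the squared Euclidean norms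
of the sums of the first `k` terms of `L'` is at most `d * |L|`. -/
theorem result (d : ℕ) (L : List (EuclideanSpace ℝ (Fin d))) (hL : ∀ x ∈ L, ‖x‖ ≤ 1)
    (hsum : L.sum = 0) :
    ∃ L' : List (EuclideanSpace ℝ (Fin d)), L'.Perm L ∧
      ∑ k ∈ Finset.range (L.length + 1), ‖(L'.take k).sum‖ ^ 2 ≤ d * L.length := by
  obtain ⟨L₀, hperm, hmin⟩ := exists_min L
  have hsum₀ : L₀.sum = 0 := by rw [hperm.sum_eq, hsum]
  have hlen : L₀.length = L.length := hperm.length_eq
  have hmin' : ∀ R : List (EuclideanSpace ℝ (Fin d)), R.Perm L₀ → cost 0 L₀ ≤ cost 0 R :=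
    fun R hR => hmin R (hR.trans hperm)
  have hv : ∀ i, ‖L₀.getD i 0‖ ≤ 1 := by
    intro i
    by_cases hi : i < L₀.length
    · rw [List.getD_eq_getElem _ _ hi]
      exact hL _ (hperm.mem_iff.mp (List.getElem_mem hi))
    · rw [List.getD_eq_default _ _ (not_lt.mp hi)]
      simp
  obtain ⟨ε, hε, hle⟩ := Vale.Agent.Helper1.PrefixWeighted.weighted_prefix d L₀.length
    (fun i => L₀.getD i 0) hv (fun k => if k = 0 then 0 else 1)
    (fun k => by split_ifs <;> norm_num)
  have hw : ∑ k ∈ Finset.range (L₀.length + 1), (if k = 0 then (0 : ℝ) else 1) = L₀.length := by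
    rw [Finset.sum_range_succ']
    simp
  have hs : scost ε 0 L₀ = ∑ k ∈ Finset.range (L₀.length + 1),
      (if k = 0 then (0 : ℝ) else 1) * ‖∑ i ∈ Finset.range k, ε i • L₀.getD i 0‖ ^ 2 := by
    rw [scost_eq_sum]
    refine Finset.sum_congr rfl fun k _ => ?_
    by_cases hk : k = 0
    · subst hk; simp
    · rw [if_neg hk, one_mul, zero_add]
  have h1 : cost 0 L₀ ≤ scost ε 0 L₀ := cost_le_scost_of_min L₀ hsum₀ hmin' ε hε
  refine ⟨L₀, hperm, ?_⟩
  have h2 := cost_eq_sum L₀ (0 : EuclideanSpace ℝ (Fin d))
  simp only [zero_add] at h2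
  rw [← hlen, ← h2]
  rw [hw] at hle
  rw [← hs] at hle
  linarith

end Vale.Agent.Results.P262.MeanSquareOrdering
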