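import Mathlib
import Vale.Agent.Results.P262.DistributionAllPrefixes
import Vale.Agent.Results.P262.MeanSquareOrdering
import Vale.Agent.Helper1.SharpExamples

/-!
# P262: the mean-square forms of both constants have order `√d`

Four statements, for the Euclidean unit ball of `ℝ^d`.

1. Signed initial partial sums, upper bound: for every finite sequence in the unit ball there is
   a probability distribution on sign sequences under which every initial partial sum `S_k` has
   `E ⟪θ, S_k⟫ ^ 2 ≤ ‖θ‖ ^ 2` for all `θ`, hence `E ‖S_k‖ ^ 2 ≤ d`, for all `k` at once.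
2. The bound `d` in 1 is attained: for the standard basis every signing has `‖S_d‖ ^ 2 = d`.
3. Rearrangements, upper bound: every finite zero-sum family in the unit ball has a rearrangement
   whose partial sums have mean square norm at most `d`.
4. Rearrangements, lower bound: for `d ≥ 1` there is a zero-sum family of `d` vectors of the unit
   ball all of whose rearrangements have sum of squared norms of partial sums `(d ^ 2 - 1) / 6`,
   that is, mean square `(d ^ 2 - 1) / (6 d)`.

The proofs are in `Vale.Agent.Results.P262.DistributionAllPrefixes`,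
`Vale.Agent.Results.P262.MeanSquareOrdering` and `Vale.Agent.Helper1.SharpExamples`.
-/

namespace Vale.Agent.Results.P262.AveragedOrdersOfGrowth

open scoped InnerProductSpace

/-- **Mean-square forms of the signed-series constant and of the rearrangement constant.**
The four parts are, in this order, statements 1 to 4 of the header of this file. -/
theorem result :
    (∀ (d N : ℕ) (v : ℕ → EuclideanSpace ℝ (Fin d)), (∀ i < N, ‖v i‖ ≤ 1) →
      ∃ (m : ℕ) (q : Fin m → ℝ) (ε : Fin m → ℕ → ℝ),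
        (∀ a, 0 ≤ q a) ∧ ∑ a, q a = 1 ∧ (∀ a i, ε a i = 1 ∨ ε a i = -1) ∧
        (∀ k ≤ N, ∀ θ : EuclideanSpace ℝ (Fin d),
          ∑ a, q a * ⟪θ, ∑ i ∈ Finset.range k, ε a i • v i⟫_ℝ ^ 2 ≤ ‖θ‖ ^ 2) ∧
        (∀ k ≤ N, ∑ a, q a * ‖∑ i ∈ Finset.range k, ε a i • v i‖ ^ 2 ≤ d)) ∧
    (∀ d : ℕ, ∃ v : ℕ → EuclideanSpace ℝ (Fin d), (∀ i, ‖v i‖ ≤ 1) ∧
      ∀ ε : ℕ → ℝ, (∀ i, ε i = 1 ∨ ε i = -1) →
        ‖∑ i ∈ Finset.range d, ε i • v i‖ ^ 2 = d) ∧
    (∀ (d : ℕ) (L : List (EuclideanSpace ℝ (Fin d))), (∀ x ∈ L, ‖x‖ ≤ 1) → L.sum = 0 →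
      ∃ L' : List (EuclideanSpace ℝ (Fin d)), L'.Perm L ∧
        ∑ k ∈ Finset.range (L.length + 1), ‖(L'.take k).sum‖ ^ 2 ≤ d * L.length) ∧
    (∀ d : ℕ, 1 ≤ d → ∃ L : List (EuclideanSpace ℝ (Fin d)),
      (∀ x ∈ L, ‖x‖ ≤ 1) ∧ L.sum = 0 ∧ L.length = d ∧
      ∀ L' : List (EuclideanSpace ℝ (Fin d)), L'.Perm L →
        ∑ k ∈ Finset.range (L.length + 1), ‖(L'.take k).sum‖ ^ 2 = ((d : ℝ) ^ 2 - 1) / 6) :=
  ⟨fun d N v hv => Vale.Agent.Results.P262.DistributionAllPrefixes.result d N v hv,
   fun d => Vale.Agent.Helper1.SharpExamples.basis_example d,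
   fun d L hL hsum => Vale.Agent.Results.P262.MeanSquareOrdering.result d L hL hsum,
   fun d hd => Vale.Agent.Helper1.SharpExamples.simplex_example d hd⟩

end Vale.Agent.Results.P262.AveragedOrdersOfGrowth
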