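import Mathlib
import Vale.Agent.Results.P262.DistributionAllPrefixes
import Vale.Agent.Results.P262.MeanSquareOrdering

/-!
# P262: both questions in mean square

The two parts of the statement are the mean-square forms of the two conjectures of the problem.

* Signed initial partial sums: for every finite sequence in the Euclidean unit ball of `ℝ^d`
  there is a probability distribution on sign sequences under which every initial partial sum
  `S_k` has `E ⟪θ, S_k⟫ ^ 2 ≤ ‖θ‖ ^ 2` for all `θ`, hence `E ‖S_k‖ ^ 2 ≤ d`, for all `k` at once.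
* Rearrangements: every finite zero-sum family in the Euclidean unit ball of `ℝ^d` has a
  rearrangement whose partial sums have mean square norm at most `d`.

The proofs are in `Vale.Agent.Results.P262.DistributionAllPrefixes` and
`Vale.Agent.Results.P262.MeanSquareOrdering`.
-/

namespace Vale.Agent.Results.P262.AveragedPrefixAndOrdering

open scoped InnerProductSpace

/-- **Mean-square forms of the signed-series and of the rearrangement conjecture.**

First part: for `v 0, …, v (N-1)` in the Euclidean unit ball of `ℝ^d` there are finitely many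
sign sequences `ε a` with probabilities `q a` such that for every `k ≤ N` and every `θ` the
`q`-mean of `⟪θ, ∑_{i<k} ε a i • v i⟫ ^ 2` is at most `‖θ‖ ^ 2`, and the `q`-mean of
`‖∑_{i<k} ε a i • v i‖ ^ 2` is at most `d`.

Second part: every list `L` of vectors of the Euclidean unit ball of `ℝ^d` with sum `0` has a
rearrangement `L'` such that the sum over `k = 0, …, |L|` of the squared norms of the sums of
the first `k` terms of `L'` is at most `d * |L|`. -/
theorem result :
    (∀ (d N : ℕ) (v : ℕ → EuclideanSpace ℝ (Fin d)), (∀ i < N, ‖v i‖ ≤ 1) →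
      ∃ (m : ℕ) (q : Fin m → ℝ) (ε : Fin m → ℕ → ℝ),
        (∀ a, 0 ≤ q a) ∧ ∑ a, q a = 1 ∧ (∀ a i, ε a i = 1 ∨ ε a i = -1) ∧
        (∀ k ≤ N, ∀ θ : EuclideanSpace ℝ (Fin d),
          ∑ a, q a * ⟪θ, ∑ i ∈ Finset.range k, ε a i • v i⟫_ℝ ^ 2 ≤ ‖θ‖ ^ 2) ∧
        (∀ k ≤ N, ∑ a, q a * ‖∑ i ∈ Finset.range k, ε a i • v i‖ ^ 2 ≤ d)) ∧
    (∀ (d : ℕ) (L : List (EuclideanSpace ℝ (Fin d))), (∀ x ∈ L, ‖x‖ ≤ 1) → L.sum = 0 →
      ∃ L' : List (EuclideanSpace ℝ (Fin d)), L'.Perm L ∧
        ∑ k ∈ Finset.range (L.length + 1), ‖(L'.take k).sum‖ ^ 2 ≤ d * L.length) :=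
  ⟨fun d N v hv => Vale.Agent.Results.P262.DistributionAllPrefixes.result d N v hv,
   fun d L hL hsum => Vale.Agent.Results.P262.MeanSquareOrdering.result d L hL hsum⟩

end Vale.Agent.Results.P262.AveragedPrefixAndOrdering
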