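import Mathlib
import Vale.Agent.Helper1.SignForcing

/-!
# P262: the signed partial-sum constant in dimension at least three

For every `d ≥ 3` there is an explicit finite sequence of vectors in the Euclidean unit ball of
`ℝ^d` such that every choice of signs has an initial partial sum of norm at least `√(d + 4/3)`.
In the notation of the problem: `σ(d) ≥ √(d + 4/3)` for all `d ≥ 3`.

The sequence consists of `d - 3` coordinate vectors followed by `18` vectors with rational
coordinates in the span of the remaining three coordinate vectors; the three-dimensional part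
is verified by an exact integer computation over the tree of sign choices.
-/

namespace Vale.Agent.Results.P262.LowerBoundDimGe3

open scoped InnerProductSpace
open Vale.Agent.Helper1.SignForcing

/-- Integer certificate: 18 vectors of `ℤ³` of Euclidean norm at most `10^5`. -/
def cert : List (ℤ × ℤ × ℤ) :=
  [(-14088, -95273, -26910), (83215, -30242, -46479), (18982, -16298, 96818), (-15223, -8098, -98500), (-23149, 34336, -91021), (-50055, 69001, 52277), (-325, 35012, -93668), (41299, -31781, 85346), (71240, -12495, -69053), (-16258, 13818, 97695), (14406, -60144, -78579), (57079, -57339, -58769), (85875, 21892, 46324), (53824, -45938, -70656), (56898, -77662, -27033), (61373, -68492, 39265), (-21784, -91415, 34181), (-73019, -67739, -8900)]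

theorem cert_forces : forcesInt 43333333334 (0, 0, 0) cert = true := by decide +kernel

theorem cert_le : allLe (100000 * 100000) cert = true := by decide +kernel

/-- **Lower bound for the signed partial-sum constant in dimension `d ≥ 3`.** There are `N` and
vectors `v 0, …, v (N-1)` in the Euclidean unit ball of `ℝ^d` (the values `v i` for `i ≥ N`
are irrelevant) such that for every sign sequence `ε` some partial sum `∑_{i<k} ε i • v i`
with `k ≤ N` has Euclidean norm at least `√(d + 4/3)`. -/
theorem result (d : ℕ) (hd : 3 ≤ d) :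
    ∃ (N : ℕ) (v : ℕ → EuclideanSpace ℝ (Fin d)), (∀ i, ‖v i‖ ≤ 1) ∧
      ∀ ε : ℕ → ℝ, (∀ i, ε i = 1 ∨ ε i = -1) →
        ∃ k, k ≤ N ∧ Real.sqrt (d + 4 / 3) ≤ ‖∑ i ∈ Finset.range k, ε i • v i‖ := by
  classical
  set B := EuclideanSpace.basisFun (Fin d) ℝ with hB
  have hon : Orthonormal ℝ B := B.orthonormal
  have hn1 : ∀ i, ‖B i‖ = 1 := fun i => hon.1 i
  have horth : ∀ i j, i ≠ j → ⟪B i, B j⟫_ℝ = 0 := fun i j hij => hon.2 hij
  set i0 : Fin d := ⟨0, by omega⟩ with hi0
  set i1 : Fin d := ⟨1, by omega⟩ with hi1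
  set i2 : Fin d := ⟨2, by omega⟩ with hi2
  have h01 : ⟪B i0, B i1⟫_ℝ = 0 := horth _ _ (by simp [hi0, hi1, Fin.ext_iff])
  have h02 : ⟪B i0, B i2⟫_ℝ = 0 := horth _ _ (by simp [hi0, hi2, Fin.ext_iff])
  have h12 : ⟪B i1, B i2⟫_ℝ = 0 := horth _ _ (by simp [hi1, hi2, Fin.ext_iff])
  set W : Submodule ℝ (EuclideanSpace ℝ (Fin d)) :=
    Submodule.span ℝ ({B i0, B i1, B i2} : Set (EuclideanSpace ℝ (Fin d))) with hWdef
  set M : ℤ := 100000 with hM
  set L : List (EuclideanSpace ℝ (Fin d)) := cert.map (emb (B i0) (B i1) (B i2) (M : ℝ)) with hL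
  set T : ℝ := ((43333333334 : ℤ) : ℝ) / (M : ℝ) ^ 2 with hT
  have hT13 : (13 : ℝ) / 3 ≤ T := by
    rw [hT, hM]; norm_num
  have hF : Forces T (0 : EuclideanSpace ℝ (Fin d)) L := by
    have := forces_of_forcesInt (hn1 i0) (hn1 i1) (hn1 i2) h01 h02 h12 (M : ℝ) 43333333334
      cert (0, 0, 0) cert_forces
    rwa [emb_zero] at this
  have hLW : ∀ v ∈ L, v ∈ W := by
    intro v hv
    rw [hL, List.mem_map] at hv
    obtain ⟨p, _, rfl⟩ := hv
    exact emb_mem _ _ _ _ p
  have hL1 : ∀ v ∈ L, ‖v‖ ≤ 1 :=
    norm_le_one_of_allLe (hn1 i0) (hn1 i1) (hn1 i2) h01 h02 h12 M (by rw [hM]; norm_num) cert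
      cert_le
  -- the orthonormal initial block
  set U : List (EuclideanSpace ℝ (Fin d)) :=
    List.ofFn (fun j : Fin (d - 3) => B ⟨j.val + 3, by omega⟩) with hU
  have hUlen : U.length = d - 3 := by simp [hU]
  have hUpw : U.Pairwise fun x y => ⟪x, y⟫_ℝ = 0 := by
    rw [hU, List.pairwise_ofFn]
    intro i j hij
    apply horth
    intro h
    have := congrArg Fin.val h
    simp at this
    omega
  have hUprop : ∀ u ∈ U, ‖u‖ = 1 ∧ ∀ w ∈ W, ⟪u, w⟫_ℝ = 0 := by
    intro u hu
    rw [hU, List.mem_ofFn] at hu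
    obtain ⟨j, rfl⟩ := hu
    refine ⟨hn1 _, ?_⟩
    intro w hw
    refine Submodule.span_induction ?_ ?_ ?_ ?_ hw
    · intro x hx
      simp only [Set.mem_insert_iff, Set.mem_singleton_iff] at hx
      rcases hx with rfl | rfl | rfl
      · apply horth; intro h; have := congrArg Fin.val h; simp [hi0] at this
      · apply horth; intro h; have := congrArg Fin.val h; simp [hi1] at this
      · apply horth; intro h; have := congrArg Fin.val h; simp [hi2] at this
    · simp
    · intro x y _ _ hx hy
      rw [inner_add_right, hx, hy, add_zero]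
    · intro c x _ hx
      rw [inner_smul_right, hx, mul_zero]
  set T' : ℝ := T + ((d : ℝ) - 3) with hT'
  have hfull : Forces T' (0 : EuclideanSpace ℝ (Fin d)) (U ++ L) := by
    refine forces_orth_list W L U hUpw hUprop 0 (by simp) (by simp) ?_
    intro a' ha'W hn'
    have ha'sq : ‖a'‖ ^ 2 = (d : ℝ) - 3 := by
      rw [hn', hUlen]; push_cast [Nat.cast_sub hd]; simp
    have key : T' = T + ‖a'‖ ^ 2 := by rw [ha'sq]
    rw [key]
    have := forces_add_orth W a' ha'W L 0 W.zero_mem hLW hF
    rwa [add_zero] at this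
  refine ⟨(U ++ L).length, fun i => (U ++ L).getD i 0, ?_, ?_⟩
  · intro i
    show ‖(U ++ L).getD i 0‖ ≤ 1
    by_cases hi : i < (U ++ L).length
    · rw [List.getD_eq_getElem _ _ hi]
      have hmem : (U ++ L)[i] ∈ U ++ L := List.getElem_mem hi
      rcases List.mem_append.mp hmem with h | h
      · exact le_of_eq (hUprop _ h).1
      · exact hL1 _ h
    · rw [List.getD_eq_default _ _ (not_lt.mp hi)]
      simp
  · intro ε hε
    obtain ⟨k, hk, hk'⟩ := forces_sum (U ++ L) 0 hfull ε hε
    refine ⟨k, hk, ?_⟩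
    rw [zero_add] at hk'
    rw [Real.sqrt_le_iff]
    refine ⟨norm_nonneg _, le_trans ?_ hk'⟩
    rw [hT']
    linarith

end Vale.Agent.Results.P262.LowerBoundDimGe3
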