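import Mathlib
import Vale.Agent.Helper1.GSWalk

/-!
# P262: weighted mean-square balancing of all initial partial sums

For every finite sequence `v 0, …, v (N-1)` in the Euclidean unit ball of `ℝ^d` and all weights
`w 0, …, w N ≥ 0` on the lengths of the initial partial sums there are signs `ε i ∈ {1, -1}` with

`∑ k ≤ N, w k * ‖∑ i < k, ε i • v i‖ ^ 2 ≤ d * ∑ k ≤ N, w k`.

So the weighted mean square of the norms of the signed initial partial sums is at most `d`, for
every weighting, with the constant `1` in front of `d` and no dependence on `N`.  The constant is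
attained: for an orthonormal basis and all weight on `k = d` the left side equals `d` for every
signing.

The proof applies the deterministic walk of `Vale.Agent.Helper1.GSWalk` in the Hilbert space of
sequences `(f k)_{k ≤ N}` of vectors of `ℝ^d`, to the vectors `x i = (√(w k) • v i if i < k,
else 0)_k` and the constant sequences `c j = (√(w k) • e_j)_k`.
-/

namespace Vale.Agent.Results.P262.MeanSquarePrefix

open scoped InnerProductSpace
open Vale.Agent.Helper1.GSWalk

theorem sum_apply_aux {ι κ : Type*} [Fintype ι] (β : ι → Type*)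
    [∀ i, SeminormedAddCommGroup (β i)] (s : Finset κ) (f : κ → PiLp 2 β) (i : ι) :
    (∑ a ∈ s, f a) i = ∑ a ∈ s, f a i := by
  classical
  induction s using Finset.induction_on with
  | empty => simp
  | insert a s ha ih => rw [Finset.sum_insert ha, Finset.sum_insert ha, PiLp.add_apply, ih]

/-- **Weighted mean-square balancing of initial partial sums.** Let `v 0, …, v (N-1)` lie in the
Euclidean unit ball of `ℝ^d` (the values `v i` for `i ≥ N` are irrelevant) and let `w k ≥ 0` be
weights. Then there is a sign sequence `ε` such that the weighted sum over `k = 0, …, N` of the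
squared Euclidean norms of the partial sums `∑_{i<k} ε i • v i` is at most `d` times the total
weight `∑_{k ≤ N} w k`. -/
theorem result (d N : ℕ) (v : ℕ → EuclideanSpace ℝ (Fin d)) (hv : ∀ i, ‖v i‖ ≤ 1)
    (w : ℕ → ℝ) (hw : ∀ k, 0 ≤ w k) :
    ∃ ε : ℕ → ℝ, (∀ i, ε i = 1 ∨ ε i = -1) ∧
      ∑ k ∈ Finset.range (N + 1), w k * ‖∑ i ∈ Finset.range k, ε i • v i‖ ^ 2
        ≤ d * ∑ k ∈ Finset.range (N + 1), w k := by
  classical
  set x : ℕ → PiLp 2 (fun _ : Fin (N + 1) => EuclideanSpace ℝ (Fin d)) := fun i => WithLp.toLp 2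
    (fun k : Fin (N + 1) => if i < (k : ℕ) then Real.sqrt (w k) • v i else 0) with hx
  set c : Fin d → PiLp 2 (fun _ : Fin (N + 1) => EuclideanSpace ℝ (Fin d)) := fun j =>
    WithLp.toLp 2 (fun k : Fin (N + 1) => Real.sqrt (w k) • EuclideanSpace.single j (1 : ℝ))
    with hc
  have hxk : ∀ i (k : Fin (N + 1)),
      x i k = if i < (k : ℕ) then Real.sqrt (w k) • v i else 0 := fun i k => rfl
  have hck : ∀ j (k : Fin (N + 1)),
      c j k = Real.sqrt (w k) • EuclideanSpace.single j (1 : ℝ) := fun j k => rfl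
  have hyp : ∀ p, ∀ f ∈ Submodule.span ℝ (x '' {j | p ≤ j}),
      ⟪x p, f⟫_ℝ ^ 2 ≤ ∑ k, ⟪c k, f⟫_ℝ ^ 2 := by
    intro p f hf
    have hzero : ∀ k : Fin (N + 1), (k : ℕ) ≤ p → f k = 0 := by
      refine Submodule.span_induction
        (p := fun f _ => ∀ k : Fin (N + 1), (k : ℕ) ≤ p → f k = 0) ?_ ?_ ?_ ?_ hf
      · rintro _ ⟨j, hj, rfl⟩ k hk
        have hpj : p ≤ j := hj
        have : ¬ j < (k : ℕ) := by omega
        rw [hxk, if_neg this]
      · intro k _; rfl
      · intro a b _ _ ha hb k hk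
        rw [PiLp.add_apply, ha k hk, hb k hk, add_zero]
      · intro t a _ ha k hk
        rw [PiLp.smul_apply, ha k hk, smul_zero]
    set F : EuclideanSpace ℝ (Fin d) := ∑ k : Fin (N + 1), Real.sqrt (w k) • f k with hF
    have h1 : ⟪x p, f⟫_ℝ = ⟪v p, F⟫_ℝ := by
      rw [PiLp.inner_apply, hF, inner_sum]
      refine Finset.sum_congr rfl fun k _ => ?_
      rw [hxk]
      split_ifs with h
      · rw [inner_smul_left, inner_smul_right]; simp
      · rw [hzero k (not_lt.mp h)]; simp
    have h2 : ∀ j, ⟪c j, f⟫_ℝ = F j := by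
      intro j
      rw [PiLp.inner_apply, hF, sum_apply_aux]
      refine Finset.sum_congr rfl fun k _ => ?_
      rw [hck, inner_smul_left, EuclideanSpace.inner_single_left, PiLp.smul_apply]; simp
    have hF2 : ‖F‖ ^ 2 = ∑ j, (F j) ^ 2 := EuclideanSpace.real_norm_sq_eq F
    calc ⟪x p, f⟫_ℝ ^ 2 = ⟪v p, F⟫_ℝ ^ 2 := by rw [h1]
      _ ≤ (‖v p‖ * ‖F‖) ^ 2 := by
          have := abs_real_inner_le_norm (v p) F
          rw [← sq_abs]; exact pow_le_pow_left₀ (abs_nonneg _) this 2
      _ ≤ ‖F‖ ^ 2 := by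
          rw [mul_pow]
          have h3 := hv p
          have h4 := norm_nonneg (v p)
          have h5 : ‖v p‖ ^ 2 ≤ 1 := by nlinarith
          nlinarith [sq_nonneg ‖F‖]
      _ = ∑ j, ⟪c j, f⟫_ℝ ^ 2 := by
          rw [hF2]; exact Finset.sum_congr rfl fun j _ => by rw [h2]
  obtain ⟨ε, hε, hle⟩ := exists_signing x c hyp (Finset.range N)
  refine ⟨ε, hε, ?_⟩
  have hL : ‖∑ i ∈ Finset.range N, ε i • x i‖ ^ 2
      = ∑ k ∈ Finset.range (N + 1), w k * ‖∑ i ∈ Finset.range k, ε i • v i‖ ^ 2 := by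
    rw [PiLp.norm_sq_eq_of_L2,
      ← Fin.sum_univ_eq_sum_range (fun k => w k * ‖∑ i ∈ Finset.range k, ε i • v i‖ ^ 2) (N + 1)]
    refine Finset.sum_congr rfl fun k _ => ?_
    have hk : (k : ℕ) ≤ N := Nat.lt_succ_iff.mp k.isLt
    have hcoord : (∑ i ∈ Finset.range N, ε i • x i) k
        = Real.sqrt (w k) • ∑ i ∈ Finset.range k, ε i • v i := by
      rw [sum_apply_aux]
      have h1 : ∀ i ∈ Finset.range N, (ε i • x i) k
          = if i < (k : ℕ) then Real.sqrt (w k) • (ε i • v i) else 0 := by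
        intro i _
        rw [PiLp.smul_apply, hxk]
        split_ifs
        · rw [smul_comm]
        · rw [smul_zero]
      rw [Finset.sum_congr rfl h1, ← Finset.sum_filter, Finset.smul_sum]
      have h2 : (Finset.range N).filter (fun i => i < (k : ℕ)) = Finset.range k := by
        ext i; simp only [Finset.mem_filter, Finset.mem_range]; omega
      rw [h2]
    rw [hcoord, norm_smul, mul_pow, Real.norm_eq_abs, sq_abs, Real.sq_sqrt (hw k)]
  have hR : ∑ j, ‖c j‖ ^ 2 = d * ∑ k ∈ Finset.range (N + 1), w k := by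
    have h1 : ∀ j, ‖c j‖ ^ 2 = ∑ k ∈ Finset.range (N + 1), w k := by
      intro j
      rw [PiLp.norm_sq_eq_of_L2, ← Fin.sum_univ_eq_sum_range (fun k => w k) (N + 1)]
      refine Finset.sum_congr rfl fun k _ => ?_
      rw [hck, norm_smul, mul_pow, Real.norm_eq_abs, sq_abs, Real.sq_sqrt (hw k)]
      simp
    rw [Finset.sum_congr rfl fun j _ => h1 j]
    simp
  rw [← hL, ← hR]
  exact hle

end Vale.Agent.Results.P262.MeanSquarePrefix
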