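import Mathlib

/-!
# P262: a lower bound for the signed prefix-sum constant

For every `d ≥ 2` and every `R < √(d+1)` there is a finite sequence of vectors in the
Euclidean unit ball of `ℝ^d` such that every choice of signs has a prefix sum of norm `> R`.
In the notation of the problem this says `σ(d) ≥ √(d+1)` for all `d ≥ 2`.
-/

namespace Vale.Agent.Results.P262.PrefixLowerBound

open scoped InnerProductSpace

variable {E : Type*} [NormedAddCommGroup E]

/-- `Forces T s L`: starting from the vector `s`, every signing of the list `L` has a prefix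
whose signed sum, added to `s`, has squared norm at least `T`. -/
def Forces (T : ℝ) : E → List E → Prop
  | s, [] => T ≤ ‖s‖ ^ 2
  | s, v :: L => T ≤ ‖s‖ ^ 2 ∨ (Forces T (s + v) L ∧ Forces T (s - v) L)

theorem forces_of_le {T : ℝ} {s : E} (h : T ≤ ‖s‖ ^ 2) : ∀ L : List E, Forces T s L
  | [] => h
  | _ :: _ => Or.inl h

theorem forces_neg {T : ℝ} : ∀ (L : List E) (s : E), Forces T s L → Forces T (-s) L
  | [], s, h => by simpa [Forces] using h
  | v :: L, s, h => by
      rcases h with h | ⟨h1, h2⟩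
      · exact Or.inl (by simpa using h)
      · refine Or.inr ⟨?_, ?_⟩
        · have := forces_neg L (s - v) h2
          rwa [neg_sub, ← neg_add_eq_sub] at this
        · have := forces_neg L (s + v) h1
          rwa [neg_add, ← sub_eq_add_neg] at this

variable [InnerProductSpace ℝ E]

theorem forces_sum {T : ℝ} : ∀ (L : List E) (s : E), Forces T s L →
    ∀ ε : ℕ → ℝ, (∀ i, ε i = 1 ∨ ε i = -1) →
      ∃ k, k ≤ L.length ∧ T ≤ ‖s + ∑ i ∈ Finset.range k, ε i • L.getD i 0‖ ^ 2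
  | [], s, h, ε, _ => ⟨0, le_refl _, by simpa [Forces] using h⟩
  | v :: L, s, h, ε, hε => by
      rcases h with h | ⟨h1, h2⟩
      · exact ⟨0, Nat.zero_le _, by simpa using h⟩
      · rcases hε 0 with h0 | h0
        · obtain ⟨k, hk, hk'⟩ := forces_sum L (s + v) h1 (fun i => ε (i + 1)) (fun i => hε (i + 1))
          refine ⟨k + 1, by simpa using hk, ?_⟩
          rw [Finset.sum_range_succ']
          simp only [List.getD_cons_succ, List.getD_cons_zero, h0, one_smul]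
          rw [show s + (∑ i ∈ Finset.range k, ε (i + 1) • L.getD i 0 + v)
            = s + v + ∑ i ∈ Finset.range k, ε (i + 1) • L.getD i 0 by abel]
          exact hk'
        · obtain ⟨k, hk, hk'⟩ := forces_sum L (s - v) h2 (fun i => ε (i + 1)) (fun i => hε (i + 1))
          refine ⟨k + 1, by simpa using hk, ?_⟩
          rw [Finset.sum_range_succ']
          simp only [List.getD_cons_succ, List.getD_cons_zero, h0, neg_smul, one_smul]
          rw [show s + (∑ i ∈ Finset.range k, ε (i + 1) • L.getD i 0 + -v)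
            = s - v + ∑ i ∈ Finset.range k, ε (i + 1) • L.getD i 0 by abel]
          exact hk'

theorem norm_add_sq_of_orth {a s : E} (h : ⟪a, s⟫_ℝ = 0) : ‖a + s‖ ^ 2 = ‖a‖ ^ 2 + ‖s‖ ^ 2 := by
  rw [norm_add_sq_real, h]; ring

theorem norm_sub_sq_of_orth {a s : E} (h : ⟪a, s⟫_ℝ = 0) : ‖a - s‖ ^ 2 = ‖a‖ ^ 2 + ‖s‖ ^ 2 := by
  rw [norm_sub_sq_real, h]; ring

theorem forces_add_orth {T : ℝ} (W : Submodule ℝ E) (a : E) (ha : ∀ w ∈ W, ⟪a, w⟫_ℝ = 0) :
    ∀ (L : List E) (s : E), s ∈ W → (∀ v ∈ L, v ∈ W) → Forces T s L →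
      Forces (T + ‖a‖ ^ 2) (a + s) L
  | [], s, hs, _, h => by
      have h' : T ≤ ‖s‖ ^ 2 := h
      show T + ‖a‖ ^ 2 ≤ ‖a + s‖ ^ 2
      rw [norm_add_sq_of_orth (ha s hs)]; linarith
  | v :: L, s, hs, hL, h => by
      rcases h with h | ⟨h1, h2⟩
      · refine Or.inl ?_
        rw [norm_add_sq_of_orth (ha s hs)]; linarith
      · have hv : v ∈ W := hL v (by simp)
        have hL' : ∀ u ∈ L, u ∈ W := fun u hu => hL u (by simp [hu])
        refine Or.inr ⟨?_, ?_⟩
        · have := forces_add_orth W a ha L (s + v) (W.add_mem hs hv) hL' h1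
          rwa [← add_assoc] at this
        · have := forces_add_orth W a ha L (s - v) (W.sub_mem hs hv) hL' h2
          rwa [← add_sub_assoc] at this

theorem forces_prefix {T : ℝ} (W : Submodule ℝ E) (L' : List E) :
    ∀ (U : List E), (U.Pairwise fun x y => ⟪x, y⟫_ℝ = 0) →
      (∀ u ∈ U, ‖u‖ = 1 ∧ ∀ w ∈ W, ⟪u, w⟫_ℝ = 0) →
      ∀ a : E, (∀ w ∈ W, ⟪a, w⟫_ℝ = 0) → (∀ u ∈ U, ⟪a, u⟫_ℝ = 0) →
        (∀ a' : E, (∀ w ∈ W, ⟪a', w⟫_ℝ = 0) → ‖a'‖ ^ 2 = ‖a‖ ^ 2 + U.length →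
          Forces T a' L') →
        Forces T a (U ++ L')
  | [], _, _, a, haW, _, hfin => by
      simpa using hfin a haW (by simp)
  | u :: U, hpw, hU, a, haW, haU, hfin => by
      have hu : ‖u‖ = 1 ∧ ∀ w ∈ W, ⟪u, w⟫_ℝ = 0 := hU u (by simp)
      have hU' : ∀ x ∈ U, ‖x‖ = 1 ∧ ∀ w ∈ W, ⟪x, w⟫_ℝ = 0 := fun x hx => hU x (by simp [hx])
      have hpw' := (List.pairwise_cons.mp hpw).2
      have huU : ∀ x ∈ U, ⟪u, x⟫_ℝ = 0 := (List.pairwise_cons.mp hpw).1
      have hau : ⟪a, u⟫_ℝ = 0 := haU u (by simp)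
      have haU' : ∀ x ∈ U, ⟪a, x⟫_ℝ = 0 := fun x hx => haU x (by simp [hx])
      refine Or.inr ⟨?_, ?_⟩
      · refine forces_prefix W L' U hpw' hU' (a + u) ?_ ?_ ?_
        · intro w hw; rw [inner_add_left, haW w hw, hu.2 w hw, add_zero]
        · intro x hx; rw [inner_add_left, haU' x hx, huU x hx, add_zero]
        · intro a' ha'W hn
          refine hfin a' ha'W ?_
          rw [hn, norm_add_sq_of_orth hau, hu.1]; simp; ring
      · refine forces_prefix W L' U hpw' hU' (a - u) ?_ ?_ ?_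
        · intro w hw; rw [inner_sub_left, haW w hw, hu.2 w hw, sub_zero]
        · intro x hx; rw [inner_sub_left, haU' x hx, huU x hx, sub_zero]
        · intro a' ha'W hn
          refine hfin a' ha'W ?_
          rw [hn, norm_sub_sq_of_orth hau, hu.1]; simp; ring

theorem planar_forcing (W : Submodule ℝ E)
    (hW : ∀ s ∈ W, ∃ w ∈ W, ‖w‖ = 1 ∧ ⟪s, w⟫_ℝ = 0) (T : ℝ) (hT : 9 / 4 ≤ T) :
    ∀ (n : ℕ) (s : E), s ∈ W → T - 2 + (1 / 2) ^ n ≤ ‖s‖ ^ 2 →
      ∃ L : List E, (∀ v ∈ L, v ∈ W ∧ ‖v‖ = 1) ∧ Forces T s L := by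
  have kill : ∀ s : E, s ∈ W → T - 1 ≤ ‖s‖ ^ 2 →
      ∃ L : List E, (∀ v ∈ L, v ∈ W ∧ ‖v‖ = 1) ∧ Forces T s L := by
    intro s hs h
    obtain ⟨w, hwW, hw1, hsw⟩ := hW s hs
    refine ⟨[w], by simpa using ⟨hwW, hw1⟩, Or.inr ⟨?_, ?_⟩⟩
    · show T ≤ ‖s + w‖ ^ 2
      rw [norm_add_sq_of_orth hsw, hw1]; linarith
    · show T ≤ ‖s - w‖ ^ 2
      rw [norm_sub_sq_of_orth hsw, hw1]; linarith
  intro n
  induction n with
  | zero =>
      intro s hs h
      exact kill s hs (by norm_num at h; linarith)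
  | succ n ih =>
      intro s hs h
      by_cases h1 : T - 1 ≤ ‖s‖ ^ 2
      · exact kill s hs h1
      · replace h1 := not_le.mp h1
        have hpow : (0 : ℝ) < (1 / 2) ^ (n + 1) := by positivity
        have hs2 : 1 / 4 < ‖s‖ ^ 2 := by linarith
        have hs0 : 0 ≤ ‖s‖ := norm_nonneg s
        have hshalf : 1 / 2 < ‖s‖ := by nlinarith
        have hspos : 0 < ‖s‖ ^ 2 := by positivity
        obtain ⟨w, hwW, hw1, hsw⟩ := hW s hs
        set c : ℝ := (T - 1 - ‖s‖ ^ 2) / 2 with hc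
        have hc0 : 0 < c := by rw [hc]; linarith
        have hc1 : c ≤ 1 / 2 := by rw [hc]; linarith
        have hcs : c ^ 2 ≤ ‖s‖ ^ 2 := by nlinarith
        have hq : 0 ≤ 1 - c ^ 2 / ‖s‖ ^ 2 := by
          rw [sub_nonneg, div_le_one hspos]; exact hcs
        set v : E := (c / ‖s‖ ^ 2) • s + Real.sqrt (1 - c ^ 2 / ‖s‖ ^ 2) • w with hv
        have hvW : v ∈ W := W.add_mem (W.smul_mem _ hs) (W.smul_mem _ hwW)
        have hsv : ⟪s, v⟫_ℝ = c := by
          rw [hv, inner_add_right, inner_smul_right, inner_smul_right, hsw,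
            real_inner_self_eq_norm_sq]
          field_simp
          ring
        have hv1 : ‖v‖ ^ 2 = 1 := by
          rw [hv, norm_add_sq_real, norm_smul, norm_smul, inner_smul_left, inner_smul_right,
            hsw, hw1, Real.norm_eq_abs, Real.norm_eq_abs, mul_pow, mul_pow, sq_abs, sq_abs,
            Real.sq_sqrt hq]
          field_simp
          ring
        have hv1' : ‖v‖ = 1 := by
          have := norm_nonneg v
          nlinarith
        have hplus : ‖s + v‖ ^ 2 = T := by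
          rw [norm_add_sq_real, hsv, hv1, hc]; ring
        have hminus : ‖s - v‖ ^ 2 = 2 * ‖s‖ ^ 2 + 2 - T := by
          rw [norm_sub_sq_real, hsv, hv1, hc]; ring
        obtain ⟨L, hL, hF⟩ := ih (s - v) (W.sub_mem hs hvW) (by
          rw [hminus]
          have : (1 / 2 : ℝ) ^ (n + 1) = (1 / 2) ^ n / 2 := by rw [pow_succ]; ring
          linarith)
        refine ⟨v :: L, ?_, Or.inr ⟨forces_of_le (le_of_eq hplus.symm) L, hF⟩⟩
        intro x hx
        rcases List.mem_cons.mp hx with rfl | hx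
        · exact ⟨hvW, hv1'⟩
        · exact hL x hx

theorem span_pair_perp {b0 b1 : E} (h0 : ‖b0‖ = 1) (h1 : ‖b1‖ = 1) (h01 : ⟪b0, b1⟫_ℝ = 0) :
    ∀ s ∈ Submodule.span ℝ {b0, b1},
      ∃ w ∈ Submodule.span ℝ {b0, b1}, ‖w‖ = 1 ∧ ⟪s, w⟫_ℝ = 0 := by
  intro s hs
  obtain ⟨x, y, rfl⟩ := Submodule.mem_span_pair.mp hs
  have hb0 : b0 ∈ Submodule.span ℝ {b0, b1} := Submodule.subset_span (by simp)
  have hb1 : b1 ∈ Submodule.span ℝ {b0, b1} := Submodule.subset_span (by simp)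
  have h10 : ⟪b1, b0⟫_ℝ = 0 := by rw [real_inner_comm]; exact h01
  by_cases hxy : x ^ 2 + y ^ 2 = 0
  · have hx : x = 0 := by nlinarith [sq_nonneg x, sq_nonneg y]
    have hy : y = 0 := by nlinarith [sq_nonneg x, sq_nonneg y]
    exact ⟨b0, hb0, h0, by simp [hx, hy]⟩
  · have hpos : 0 < x ^ 2 + y ^ 2 := lt_of_le_of_ne (by positivity) (Ne.symm hxy)
    set r : ℝ := Real.sqrt (x ^ 2 + y ^ 2) with hr
    have hrpos : 0 < r := Real.sqrt_pos.mpr hpos
    have hr2 : r ^ 2 = x ^ 2 + y ^ 2 := Real.sq_sqrt hpos.le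
    refine ⟨(-y / r) • b0 + (x / r) • b1,
      (Submodule.span ℝ {b0, b1}).add_mem (Submodule.smul_mem _ _ hb0) (Submodule.smul_mem _ _ hb1),
      ?_, ?_⟩
    · have hsq : ‖(-y / r) • b0 + (x / r) • b1‖ ^ 2 = 1 := by
        rw [norm_add_sq_real, norm_smul, norm_smul, inner_smul_left, inner_smul_right, h01, h0, h1,
          Real.norm_eq_abs, Real.norm_eq_abs, mul_pow, mul_pow, sq_abs, sq_abs]
        field_simp
        nlinarith
      have := norm_nonneg ((-y / r) • b0 + (x / r) • b1)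
      nlinarith
    · simp only [inner_add_left, inner_add_right, inner_smul_left, inner_smul_right, h01, h10,
        real_inner_self_eq_norm_sq, h0, h1]
      simp
      field_simp
      ring

/-- **Lower bound for the signed prefix constant.** For every `d ≥ 2` and every real
`R < √(d+1)` there are `N` and vectors `v 0, …, v (N-1)` (the values `v i` for `i ≥ N` are
irrelevant) in the Euclidean unit ball of `ℝ^d` such that for every sign sequence `ε` some
prefix sum `∑_{i<k} ε i • v i` with `k ≤ N` has Euclidean norm `> R`. Hence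
`σ(d) ≥ √(d+1)` for all `d ≥ 2`. -/
theorem result (d : ℕ) (hd : 2 ≤ d) (R : ℝ) (hR : R < Real.sqrt (d + 1)) :
    ∃ (N : ℕ) (v : ℕ → EuclideanSpace ℝ (Fin d)), (∀ i, ‖v i‖ ≤ 1) ∧
      ∀ ε : ℕ → ℝ, (∀ i, ε i = 1 ∨ ε i = -1) →
        ∃ k, k ≤ N ∧ R < ‖∑ i ∈ Finset.range k, ε i • v i‖ := by
  classical
  set B := EuclideanSpace.basisFun (Fin d) ℝ with hB
  have hon : Orthonormal ℝ B := B.orthonormal
  have hn1 : ∀ i, ‖B i‖ = 1 := fun i => hon.1 i
  have horth : ∀ i j, i ≠ j → ⟪B i, B j⟫_ℝ = 0 := fun i j hij => hon.2 hij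
  set i0 : Fin d := ⟨0, by omega⟩ with hi0
  set i1 : Fin d := ⟨1, by omega⟩ with hi1
  have h01 : i0 ≠ i1 := by simp [hi0, hi1, Fin.ext_iff]
  set W : Submodule ℝ (EuclideanSpace ℝ (Fin d)) := Submodule.span ℝ {B i0, B i1} with hWdef
  have hWperp := span_pair_perp (hn1 i0) (hn1 i1) (horth i0 i1 h01)
  have hb0W : B i0 ∈ W := Submodule.subset_span (by simp)
  -- thresholds
  set R' : ℝ := max R 0 with hR'
  have hR'0 : 0 ≤ R' := le_max_right _ _
  have hd1 : (0 : ℝ) < (d : ℝ) + 1 := by positivity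
  have hR'lt : R' < Real.sqrt (d + 1) := max_lt hR (Real.sqrt_pos.mpr hd1)
  have hR'sq : R' ^ 2 < (d : ℝ) + 1 := by
    have := Real.sq_sqrt hd1.le
    nlinarith [Real.sqrt_nonneg ((d : ℝ) + 1)]
  set T' : ℝ := max ((d : ℝ) + 1 / 4) ((R' ^ 2 + d + 1) / 2) with hT'
  have hT'1 : (d : ℝ) + 1 / 4 ≤ T' := le_max_left _ _
  have hT'2 : R' ^ 2 < T' := lt_of_lt_of_le (by linarith) (le_max_right _ _)
  have hT'3 : T' < (d : ℝ) + 1 := max_lt (by linarith) (by linarith)
  set T : ℝ := T' - ((d : ℝ) - 2) with hTdef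
  have hT : 9 / 4 ≤ T := by rw [hTdef]; linarith
  have hT3 : T < 3 := by rw [hTdef]; linarith
  obtain ⟨n, hn⟩ := exists_pow_lt_of_lt_one (show (0 : ℝ) < 3 - T by linarith)
    (show (1 / 2 : ℝ) < 1 by norm_num)
  obtain ⟨L, hL, hF⟩ := planar_forcing W hWperp T hT n (B i0) hb0W (by
    rw [hn1 i0]; linarith)
  -- the orthonormal prefix
  set U : List (EuclideanSpace ℝ (Fin d)) :=
    List.ofFn (fun j : Fin (d - 2) => B ⟨j.val + 2, by omega⟩) with hU
  have hUlen : U.length = d - 2 := by simp [hU]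
  have hUpw : U.Pairwise fun x y => ⟪x, y⟫_ℝ = 0 := by
    rw [hU, List.pairwise_ofFn]
    intro i j hij
    apply horth
    intro h
    have := congrArg Fin.val h
    simp at this
    omega
  have hUprop : ∀ u ∈ U, ‖u‖ = 1 ∧ ∀ w ∈ W, ⟪u, w⟫_ℝ = 0 := by
    intro u hu
    rw [hU, List.mem_ofFn] at hu
    obtain ⟨j, rfl⟩ := hu
    refine ⟨hn1 _, ?_⟩
    intro w hw
    obtain ⟨x, y, rfl⟩ := Submodule.mem_span_pair.mp hw
    rw [inner_add_right, inner_smul_right, inner_smul_right, horth, horth]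
    · simp
    · intro h; have := congrArg Fin.val h; simp [hi1] at this
    · intro h; have := congrArg Fin.val h; simp [hi0] at this
  have hfull : Forces T' (0 : EuclideanSpace ℝ (Fin d)) (U ++ B i0 :: L) := by
    refine forces_prefix W (B i0 :: L) U hUpw hUprop 0 (by simp) (by simp) ?_
    intro a' ha'W hn'
    have ha'sq : ‖a'‖ ^ 2 = (d : ℝ) - 2 := by
      rw [hn', hUlen]; push_cast [Nat.cast_sub hd]; simp
    have hLW : ∀ v ∈ L, v ∈ W := fun v hv => (hL v hv).1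
    have key : T' = T + ‖a'‖ ^ 2 := by rw [ha'sq, hTdef]; ring
    rw [key]
    refine Or.inr ⟨?_, ?_⟩
    · exact forces_add_orth W a' ha'W L (B i0) hb0W hLW hF
    · have := forces_add_orth W a' ha'W L (-(B i0)) (W.neg_mem hb0W) hLW (forces_neg L _ hF)
      rwa [← sub_eq_add_neg] at this
  refine ⟨(U ++ B i0 :: L).length, fun i => (U ++ B i0 :: L).getD i 0, ?_, ?_⟩
  · intro i
    show ‖(U ++ B i0 :: L).getD i 0‖ ≤ 1
    by_cases hi : i < (U ++ B i0 :: L).length
    · rw [List.getD_eq_getElem _ _ hi]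
      have hmem : (U ++ B i0 :: L)[i] ∈ U ++ B i0 :: L := List.getElem_mem hi
      rcases List.mem_append.mp hmem with h | h
      · exact le_of_eq (hUprop _ h).1
      · rcases List.mem_cons.mp h with h | h
        · rw [h]; exact le_of_eq (hn1 i0)
        · exact le_of_eq (hL _ h).2
    · rw [List.getD_eq_default _ _ (not_lt.mp hi)]
      simp
  · intro ε hε
    obtain ⟨k, hk, hk'⟩ := forces_sum (U ++ B i0 :: L) 0 hfull ε hε
    refine ⟨k, hk, ?_⟩
    rw [zero_add] at hk'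
    have h1 : R' ^ 2 < ‖∑ i ∈ Finset.range k, ε i • (U ++ B i0 :: L).getD i 0‖ ^ 2 :=
      lt_of_lt_of_le hT'2 hk'
    have h2 : R' < ‖∑ i ∈ Finset.range k, ε i • (U ++ B i0 :: L).getD i 0‖ :=
      lt_of_pow_lt_pow_left₀ 2 (norm_nonneg _) h1
    exact lt_of_le_of_lt (le_max_left _ _) h2

end Vale.Agent.Results.P262.PrefixLowerBound
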